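import Vale.Agent.P248.LpMahler.Pins

/-!
P248, subspaces of `L_p`: Lewis position, by first variations at a minimiser of `∑ i, ‖a_i T‖ ^ p`
over unimodular `T`.
-/

noncomputable section

open MeasureTheory Set Matrix Filter Topology

namespace Vale.Agent.P248.LpMahler

open Vale.Agent.P254.LpSub

namespace LewisAux

variable {n N : ℕ}

/-- The Euclidean length in coordinate space. -/
def len (v : Fin n → ℝ) : ℝ := √(∑ l, v l ^ 2)

lemma len_nonneg (v : Fin n → ℝ) : 0 ≤ len v := Real.sqrt_nonneg _

lemma len_smul (c : ℝ) (v : Fin n → ℝ) : len (c • v) = |c| * len v := by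
  simp [len, mul_pow, ← Finset.mul_sum, Real.sqrt_mul (sq_nonneg c), Real.sqrt_sq_eq_abs]

lemma abs_le_len (v : Fin n → ℝ) (l : Fin n) : |v l| ≤ len v := by
  rw [← Real.sqrt_sq_eq_abs]
  exact Real.sqrt_le_sqrt
    (Finset.single_le_sum (f := fun l => v l ^ 2) (fun _ _ => sq_nonneg _) (Finset.mem_univ l))

lemma eq_zero_of_len {v : Fin n → ℝ} (h : len v = 0) : v = 0 := funext fun l =>
  abs_nonpos_iff.1 (h ▸ abs_le_len v l)

/-- The derivative of the power of the length along a curve. -/
lemma hasDerivAt_len_rpow {p : ℝ} {γ : ℝ → Fin n → ℝ} {d : Fin n → ℝ}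
    (hd : ∀ l, HasDerivAt (fun t => γ t l) (d l) 0) (hne : γ 0 ≠ 0) :
    HasDerivAt (fun t => len (γ t) ^ p) (p * len (γ 0) ^ (p - 2) * ∑ l, γ 0 l * d l) 0 := by
  have hS0 : ∑ l, γ 0 l ^ 2 ≠ 0 := fun h => hne (funext fun l => by
    simpa using (Finset.sum_eq_zero_iff_of_nonneg fun l _ => sq_nonneg (γ 0 l)).1 h l
      (Finset.mem_univ l))
  have e : (fun t => len (γ t) ^ p) = fun t => (∑ l, γ t l ^ 2) ^ (p / 2) := by
    funext t
    rw [len, Real.sqrt_eq_rpow, ← Real.rpow_mul (Finset.sum_nonneg fun l _ => sq_nonneg _)]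
    ring_nf
  have hS : HasDerivAt (fun t => ∑ l, γ t l ^ 2) (∑ l, 2 * γ 0 l * d l) 0 := by
    refine HasDerivAt.fun_sum fun l _ => ((hd l).fun_pow 2).congr_deriv ?_
    simp
  rw [e]
  refine (hS.rpow_const (Or.inl hS0)).congr_deriv ?_
  rw [len, Real.sqrt_eq_rpow, ← Real.rpow_mul (Finset.sum_nonneg fun l _ => sq_nonneg _)]
  have h2 : ∑ l, 2 * γ 0 l * d l = 2 * ∑ l, γ 0 l * d l := by
    rw [Finset.mul_sum]; exact Finset.sum_congr rfl fun l _ => by ring
  rw [h2, show 1 / 2 * (p - 2) = p / 2 - 1 by ring]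
  ring

/-- First variation of the total at a minimiser. -/
lemma first_variation {p : ℝ} (hp : p ≠ 0) (v : Fin N → Fin n → ℝ) (γ : Fin N → ℝ → Fin n → ℝ)
    (d : Fin N → Fin n → ℝ) (h0 : ∀ i, γ i 0 = v i) (hz : ∀ i, v i = 0 → ∀ t, γ i t = 0)
    (hd : ∀ i l, HasDerivAt (fun t => γ i t l) (d i l) 0)
    (hmin : ∀ᶠ t in 𝓝 (0 : ℝ), ∑ i, len (v i) ^ p ≤ ∑ i, len (γ i t) ^ p) :
    ∑ i, len (v i) ^ (p - 2) * ∑ l, v i l * d i l = 0 := by
  have hD : HasDerivAt (fun t => ∑ i, len (γ i t) ^ p)
      (∑ i, p * (len (v i) ^ (p - 2) * ∑ l, v i l * d i l)) 0 := by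
    refine HasDerivAt.fun_sum fun i _ => ?_
    by_cases hv : v i = 0
    · have e : (fun t => len (γ i t) ^ p) = fun _ => len (0 : Fin n → ℝ) ^ p := by
        funext t; rw [hz i hv t]
      rw [e]
      simpa [hv] using hasDerivAt_const (0 : ℝ) (len (0 : Fin n → ℝ) ^ p)
    · have := hasDerivAt_len_rpow (p := p) (hd i) (by rw [h0]; exact hv)
      rw [h0] at this
      exact this.congr_deriv (mul_assoc _ _ _)
  have hloc : IsLocalMin (fun t => ∑ i, len (γ i t) ^ p) 0 := by
    filter_upwards [hmin] with t ht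
    simpa [h0] using ht
  have := hloc.hasDerivAt_eq_zero hD
  rw [← Finset.mul_sum, mul_eq_zero] at this
  exact this.resolve_left hp

end LewisAux

open LewisAux in
/-- Lewis position. -/
theorem lewis : Lewis := by
  intro n N a p hn hp hb
  have hp0 : 0 < p := by linarith
  set f : Matrix (Fin n) (Fin n) ℝ → ℝ := fun T => ∑ i, len (vecMul (a i) T) ^ p with hf
  have hf0 : ∀ T, 0 ≤ f T := fun T => Finset.sum_nonneg fun i _ => Real.rpow_nonneg (len_nonneg _) _
  have hcont : Continuous f := by
    refine continuous_finsetSum _ fun i _ => Continuous.rpow_const ?_ fun _ => Or.inr hp0.le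
    unfold len
    exact Real.continuous_sqrt.comp (continuous_finsetSum _ fun l _ =>
      ((continuous_apply l).comp (Continuous.matrix_vecMul continuous_const continuous_id)).pow 2)
  let L : (Fin n → ℝ) →ₗ[ℝ] (Fin N → ℝ) := Matrix.mulVecLin (Matrix.of a)
  have hspan : ∀ x, L x = 0 → x = 0 := by
    intro x hx
    by_contra h0
    obtain ⟨C, hC⟩ := hb.exists_norm_le
    have hmem : ((|C| + 1) / ‖x‖) • x ∈ lpBody a p := by
      have h1 : ∀ i, ∑ j, a i j * (((|C| + 1) / ‖x‖) • x) j
          = (|C| + 1) / ‖x‖ * L x i := fun i => by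
        simp [L, Matrix.mulVec, dotProduct, Finset.mul_sum, mul_left_comm]
      refine le_of_eq_of_le (Finset.sum_eq_zero fun i _ => ?_) (zero_le_one (α := ℝ))
      rw [h1, hx, Pi.zero_apply, mul_zero, abs_zero, Real.zero_rpow hp0.ne']
    have h1 := hC _ hmem
    rw [norm_smul, Real.norm_of_nonneg (by positivity),
      div_mul_cancel₀ _ (norm_ne_zero_iff.2 h0)] at h1
    linarith [le_abs_self C]
  obtain ⟨K, -, hK⟩ := L.exists_antilipschitzWith (LinearMap.ker_eq_bot'.2 hspan)
  have hbound : ∀ (T : Matrix (Fin n) (Fin n) ℝ) j k, |T j k| ≤ K * f T ^ (1 / p) := fun T j k => by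
    set x : Fin n → ℝ := fun l => T l k with hx
    have h2 : ‖x‖ ≤ K * ‖L x‖ := by simpa using hK.le_mul_dist x 0
    have h3 : ‖L x‖ ≤ f T ^ (1 / p) := by
      refine (pi_norm_le_iff_of_nonneg (Real.rpow_nonneg (hf0 T) _)).2 fun i => ?_
      have e : L x i = vecMul (a i) T k := by
        simp [L, hx, Matrix.mulVec, Matrix.vecMul, dotProduct]
      rw [e, Real.norm_eq_abs]
      refine (abs_le_len _ k).trans ?_
      calc len (vecMul (a i) T) = (len (vecMul (a i) T) ^ p) ^ (1 / p) := by
            rw [← Real.rpow_mul (len_nonneg _), mul_one_div_cancel hp0.ne', Real.rpow_one]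
        _ ≤ _ := Real.rpow_le_rpow (Real.rpow_nonneg (len_nonneg _) _)
            (Finset.single_le_sum (f := fun i => len (vecMul (a i) T) ^ p)
              (fun i _ => Real.rpow_nonneg (len_nonneg _) _) (Finset.mem_univ i)) (by positivity)
    exact (((Real.norm_eq_abs _).symm.le.trans (norm_le_pi_norm x j)).trans h2).trans
      (mul_le_mul_of_nonneg_left h3 K.coe_nonneg)
  set B : Set (Matrix (Fin n) (Fin n) ℝ) := {T | |T.det| = 1 ∧ f T ≤ f 1} with hB
  have hBc : IsCompact B := by
    have hbox : IsCompact (univ.pi fun _ : Fin n => univ.pi fun _ : Fin n =>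
        Icc (-(K * f 1 ^ (1 / p))) (K * f 1 ^ (1 / p)) : Set (Fin n → Fin n → ℝ)) :=
      isCompact_univ_pi fun _ => isCompact_univ_pi fun _ => isCompact_Icc
    refine IsCompact.of_isClosed_subset (X := Matrix (Fin n) (Fin n) ℝ) hbox ?_ fun T hT j _ k _ =>
      abs_le.1 ((hbound T j k).trans (mul_le_mul_of_nonneg_left
        (Real.rpow_le_rpow (hf0 T) hT.2 (by positivity)) K.coe_nonneg))
    exact IsClosed.inter (isClosed_eq (continuous_id.matrix_det.abs) continuous_const)
      (isClosed_le hcont continuous_const)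
  obtain ⟨T, hT, hTmin⟩ := hBc.exists_isMinOn ⟨1, by simp [hB]⟩ hcont.continuousOn
  have hmin : ∀ S : Matrix (Fin n) (Fin n) ℝ, |S.det| = 1 → f T ≤ f (T * S) := fun S hS => by
    have hdet : |(T * S).det| = 1 := by rw [Matrix.det_mul, abs_mul, hT.1, hS, mul_one]
    rcases le_total (f (T * S)) (f 1) with h | h
    · exact hTmin ⟨hdet, h⟩
    · exact hT.2.trans h
  set v : Fin N → Fin n → ℝ := fun i => vecMul (a i) T with hv
  set M : Fin n → Fin n → ℝ := fun j k => ∑ i, len (v i) ^ (p - 2) * (v i j * v i k) with hM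
  have hcurve : ∀ (S : ℝ → Matrix (Fin n) (Fin n) ℝ),
      (∀ᶠ t in 𝓝 (0 : ℝ), |(S t).det| = 1) →
      ∀ᶠ t in 𝓝 (0 : ℝ), ∑ i, len (v i) ^ p ≤ ∑ i, len (vecMul (v i) (S t)) ^ p := fun S hS => by
    filter_upwards [hS] with t ht
    simpa [hf, hv, Matrix.vecMul_vecMul] using hmin (S t) ht
  have hoff : ∀ j k, j ≠ k → M j k = 0 := by
    intro j k hjk
    have h := first_variation hp0.ne' v (fun i t => v i + t • Pi.single k (v i j))
      (fun i => Pi.single k (v i j)) (fun i => by simp) (fun i hi t => by simp [hi])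
      (fun i l => by
        simpa using ((hasDerivAt_id (0 : ℝ)).mul_const
          ((Pi.single k (v i j) : Fin n → ℝ) l)).const_add (v i l))
      ((hcurve (fun t => transvection j k t) (Eventually.of_forall fun t => by
        rw [det_transvection_of_ne j k hjk, abs_one])).mono fun t ht => ht.trans (le_of_eq (by
          refine Finset.sum_congr rfl fun i _ => ?_
          congr 2
          funext l
          rw [transvection, Matrix.vecMul_add, Matrix.vecMul_one, Pi.add_apply, Pi.add_apply,
            Pi.smul_apply]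
          congr 1
          by_cases hl : l = k
          · subst hl; simp [Matrix.vecMul, dotProduct, Matrix.single_apply, mul_comm]
          · simp [Matrix.vecMul, dotProduct, hl, Ne.symm hl])))
    rw [← h, hM]
    refine Finset.sum_congr rfl fun i _ => ?_
    simp [Pi.single_apply, mul_comm]
  have hdiag : ∀ j k, M j j = M k k := by
    intro j k
    rcases eq_or_ne j k with rfl | hjk
    · rfl
    set D : ℝ → Fin n → ℝ := fun t l => if l = j then 1 + t else if l = k then (1 + t)⁻¹ else 1
      with hD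
    have h := first_variation hp0.ne' v (fun i t l => v i l * D t l)
      (fun i l => v i l * (if l = j then 1 else if l = k then -1 else 0))
      (fun i => by funext l; simp [hD]) (fun i hi t => by funext l; simp [hi])
      (fun i l => by
        refine HasDerivAt.const_mul (v i l) ?_
        simp only [hD]
        by_cases h1 : l = j
        · simp only [if_pos h1]
          simpa using (hasDerivAt_id (0 : ℝ)).const_add 1
        · simp only [if_neg h1]
          by_cases h2 : l = k
          · simp only [if_pos h2]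
            simpa using ((hasDerivAt_id (0 : ℝ)).const_add 1).fun_inv (by norm_num)
          · simp only [if_neg h2]
            exact hasDerivAt_const _ _)
      ((hcurve (fun t => diagonal (D t)) ((eventually_gt_nhds (show (-1 : ℝ) < 0 by norm_num)).mono
        fun t ht => by
          rw [det_diagonal, ← Finset.mul_prod_erase _ _ (Finset.mem_univ j),
            ← Finset.mul_prod_erase _ _ (Finset.mem_erase.2 ⟨hjk.symm, Finset.mem_univ k⟩),
            Finset.prod_eq_one fun l hl => ?_]
          · simp [hD, hjk.symm, mul_inv_cancel₀ (show (1 : ℝ) + t ≠ 0 by linarith)]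
          · simp only [Finset.mem_erase] at hl
            simp [hD, hl.1, hl.2.1])).mono fun t ht => ht.trans (le_of_eq (by
          refine Finset.sum_congr rfl fun i _ => ?_
          congr 2
          funext l
          rw [Matrix.vecMul_diagonal])))
    have e : ∀ i, ∑ l, v i l * (v i l * (if l = j then 1 else if l = k then -1 else 0))
        = v i j * v i j - v i k * v i k := fun i => by
      rw [← Finset.add_sum_erase _ _ (Finset.mem_univ j),
        ← Finset.add_sum_erase _ _ (Finset.mem_erase.2 ⟨hjk.symm, Finset.mem_univ k⟩),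
        Finset.sum_eq_zero fun l hl => ?_]
      · simp [hjk.symm]; ring
      · simp only [Finset.mem_erase] at hl
        simp [hl.1, hl.2.1]
    simp only [e, mul_sub, Finset.sum_sub_distrib, sub_eq_zero] at h
    exact h
  set s := M ⟨0, hn⟩ ⟨0, hn⟩ with hs
  have hs0 : 0 < s := by
    have hTu : IsUnit T := (Matrix.isUnit_iff_isUnit_det T).2
      (isUnit_iff_ne_zero.2 fun h => by have := hT.1; rw [h, abs_zero] at this; exact one_ne_zero this.symm)
    refine (Finset.sum_nonneg fun i _ => mul_nonneg (Real.rpow_nonneg (len_nonneg _) _)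
      (mul_self_nonneg (v i ⟨0, hn⟩))).lt_of_ne fun h => ?_
    have hall : ∀ i k, v i k = 0 := fun i k => by
      have hk : M k k = 0 := (hdiag k ⟨0, hn⟩).trans h.symm
      have := (Finset.sum_eq_zero_iff_of_nonneg fun i _ => mul_nonneg
        (Real.rpow_nonneg (len_nonneg _) _) (mul_self_nonneg (v i k))).1 hk i (Finset.mem_univ i)
      rcases mul_eq_zero.1 this with h1 | h1
      · by_contra hne
        exact (Real.rpow_pos_of_pos ((abs_pos.2 hne).trans_le (abs_le_len (v i) k)) (p - 2)).ne' h1
      · exact mul_self_eq_zero.1 h1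
    have ha : ∀ i, a i = 0 := fun i => by
      have h1 : vecMul (a i) T = vecMul 0 T := by
        funext k; simpa [Matrix.zero_vecMul, hv] using hall i k
      exact Matrix.vecMul_injective_iff_isUnit.2 hTu h1
    have := congrFun (hspan (Pi.single ⟨0, hn⟩ 1) (by
      funext i; simp [L, Matrix.mulVec, dotProduct, ha])) ⟨0, hn⟩
    simp at this
  set c := s ^ (-1 / p) with hc
  have hc0 : 0 < c := Real.rpow_pos_of_pos hs0 _
  have hcs : c ^ p * s = 1 := by
    rw [hc, ← Real.rpow_mul hs0.le, div_mul_cancel₀ _ hp0.ne', Real.rpow_neg_one,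
      inv_mul_cancel₀ hs0.ne']
  refine ⟨c • T, ?_, fun j k => ?_⟩
  · rw [Matrix.det_smul]
    refine isUnit_iff_ne_zero.2 (mul_ne_zero (pow_ne_zero _ hc0.ne') fun h => ?_)
    have := hT.1; rw [h, abs_zero] at this; exact one_ne_zero this.symm
  · have e : ∀ i, √(∑ l, vecMul (a i) (c • T) l ^ 2) ^ (p - 2) *
        (vecMul (a i) (c • T) j * vecMul (a i) (c • T) k)
        = c ^ p * (len (v i) ^ (p - 2) * (v i j * v i k)) := fun i => by
      rw [Matrix.vecMul_smul]
      show len (c • v i) ^ (p - 2) * _ = _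
      rw [len_smul, abs_of_pos hc0, Real.mul_rpow hc0.le (len_nonneg _)]
      simp only [Pi.smul_apply, smul_eq_mul, hv]
      rw [show c ^ p = c ^ (p - 2) * c ^ (2 : ℕ) by
        rw [← Real.rpow_natCast, ← Real.rpow_add hc0]; norm_num]
      ring
    simp only [e, ← Finset.mul_sum]
    show c ^ p * M j k = _
    rcases eq_or_ne j k with rfl | hjk
    · rw [if_pos rfl, hdiag j ⟨0, hn⟩, ← hs, hcs]
    · rw [if_neg hjk, hoff j k hjk, mul_zero]

end Vale.Agent.P248.LpMahler
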