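import Vale.Agent.P248.LpMahler.Pins
import Vale.Agent.P254.LpSub.General
import Vale.Agent.P254.LpSub.Numeric

/-!
P248, subspaces of `L_p`: assembly, first for finitely many functionals, then for all of `L_p`.
-/

noncomputable section

open MeasureTheory Set Filter Topology Matrix
open scoped ENNReal Nat Pointwise

namespace Vale.Agent.P248.LpMahler

open Vale.Agent.P254.LpSub

variable {n N : ℕ}

lemma growth : ∀ n : ℕ, 400 ≤ n → 7.39 * ((n : ℝ) + 1) ^ 2 ≤ (1.0375 : ℝ) ^ n := by
  intro n hn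
  induction n, hn using Nat.le_induction with
  | base =>
    rw [show (400 : ℕ) = 100 * 4 from rfl, pow_mul]
    norm_num
  | succ m hm ih =>
    have hm' : (400 : ℝ) ≤ m := by exact_mod_cast hm
    push_cast
    have h2 : ((m : ℝ) + 1 + 1) ^ 2 ≤ 1.0375 * ((m : ℝ) + 1) ^ 2 := by nlinarith
    calc 7.39 * ((m : ℝ) + 1 + 1) ^ 2 ≤ 1.0375 * (7.39 * ((m : ℝ) + 1) ^ 2) := by linarith
      _ ≤ 1.0375 * (1.0375 : ℝ) ^ m := mul_le_mul_of_nonneg_left ih (by norm_num)
      _ = _ := by rw [pow_succ]; ring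

/-- The value of the Hanner polytopes is below `(4 e / n) ^ n`. -/
lemma hanner_lt (hn : 0 < n) : (4 : ℝ) ^ n / (n ! : ℝ) < (4 * Real.exp 1 / n) ^ n := by
  have hn0 : (0 : ℝ) < n := by exact_mod_cast hn
  have hst := Stirling.le_factorial_stirling n
  have h1 : (1 : ℝ) < √(2 * Real.pi * n) := by
    rw [Real.lt_sqrt zero_le_one]
    have : (1 : ℝ) ≤ n := by exact_mod_cast hn
    nlinarith [Real.pi_gt_three]
  have hpos : (0 : ℝ) < ((n : ℝ) / Real.exp 1) ^ n := by positivity
  have h2 : ((n : ℝ) / Real.exp 1) ^ n < (n ! : ℝ) := (lt_mul_of_one_lt_left hpos h1).trans_le hst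
  calc (4 : ℝ) ^ n / (n ! : ℝ) < (4 : ℝ) ^ n / ((n : ℝ) / Real.exp 1) ^ n :=
        div_lt_div_of_pos_left (by positivity) hpos h2
    _ = _ := by rw [← div_pow]; congr 1; field_simp

/-- The product in the finite case. -/
lemma finite_case (hL : Lewis) (hP : ProductLower) (hR : RatioNumeric) (hn : 400 ≤ n)
    (a : Fin N → Fin n → ℝ) {p : ℝ} (hp : 8 / 7 ≤ p) (hp' : p ≤ 8)
    (hb : Bornology.IsBounded (lpBody a p)) :
    (4 * Real.exp 1 / n) ^ n ≤
      (volume (lpBody a p)).toReal * (volume (polarBody (lpBody a p))).toReal := by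
  have hn0 : (0 : ℝ) < n := by exact_mod_cast (show 0 < n by omega)
  obtain ⟨T, hT, hframe⟩ := hL n N a p (by omega) (by linarith) hb
  set b : Fin N → Fin n → ℝ := fun i => vecMul (a i) T with hbdef
  set A := Matrix.toLin' T with hA
  set B := Matrix.toLin' Tᵀ with hB
  have key : ∀ x i, ∑ j, b i j * x j = ∑ j, a i j * A x j := fun x i => by
    simpa [hbdef, hA, dotProduct] using (Matrix.dotProduct_mulVec (a i) T x).symm
  have hmem : ∀ x, x ∈ lpBody b p ↔ A x ∈ lpBody a p := fun x => by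
    show _ ≤ (1 : ℝ) ↔ _ ≤ (1 : ℝ)
    simp only [key]
  have himg : lpBody a p = A '' lpBody b p := by
    ext y
    refine ⟨fun hy => ⟨T⁻¹ *ᵥ y, ?_, ?_⟩, ?_⟩
    · rw [hmem, hA, Matrix.toLin'_apply, Matrix.mulVec_mulVec, Matrix.mul_nonsing_inv _ hT,
        Matrix.one_mulVec]
      exact hy
    · rw [hA, Matrix.toLin'_apply, Matrix.mulVec_mulVec, Matrix.mul_nonsing_inv _ hT,
        Matrix.one_mulVec]
    · rintro ⟨x, hx, rfl⟩
      exact (hmem x).1 hx
  have hbb : Bornology.IsBounded (lpBody b p) := by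
    have hsub : lpBody b p ⊆ Matrix.toLin' T⁻¹ '' closure (lpBody a p) := fun x hx =>
      ⟨A x, subset_closure ((hmem x).1 hx), by
        simp [hA, Matrix.mulVec_mulVec, Matrix.nonsing_inv_mul _ hT]⟩
    exact ((Metric.isCompact_of_isClosed_isBounded isClosed_closure hb.closure).image
      (Matrix.toLin' T⁻¹).continuous_of_finiteDimensional).isBounded.subset hsub
  have hdot : ∀ w x : Fin n → ℝ, ∑ j, B w j * x j = ∑ j, w j * A x j := fun w x => by
    have h1 := (Matrix.dotProduct_mulVec w T x).symm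
    rw [← Matrix.mulVec_transpose] at h1
    simpa [hA, hB, dotProduct] using h1
  have hpol : polarBody (lpBody b p) = B '' polarBody (lpBody a p) := by
    ext y
    constructor
    · intro hy
      have hBy : B ((Tᵀ)⁻¹ *ᵥ y) = y := by
        rw [hB, Matrix.toLin'_apply, Matrix.mulVec_mulVec,
          Matrix.mul_nonsing_inv _ (Matrix.isUnit_det_transpose T hT), Matrix.one_mulVec]
      refine ⟨(Tᵀ)⁻¹ *ᵥ y, fun z hz => ?_, hBy⟩
      rw [himg] at hz
      obtain ⟨x, hx, rfl⟩ := hz
      rw [← hdot, hBy]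
      exact hy x hx
    · rintro ⟨w, hw, rfl⟩ x hx
      rw [hdot]
      exact hw _ (himg ▸ mem_image_of_mem A hx)
  have h := hP n N b p (p / (p - 1)) (by omega)
    (Real.holderConjugate_iff.2 ⟨by linarith, by
      rw [inv_div]; field_simp; ring⟩) hbb hframe
  have hR' := hR p (p / (p - 1)) (Real.holderConjugate_iff.2 ⟨by linarith, by
      rw [inv_div]; field_simp; ring⟩) hp hp'
  have hprod : (volume (lpBody b p)).toReal * (volume (polarBody (lpBody b p))).toReal
      = (volume (lpBody a p)).toReal * (volume (polarBody (lpBody a p))).toReal := by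
    rw [hpol, himg, Measure.addHaar_image_linearMap, Measure.addHaar_image_linearMap,
      LinearMap.det_toLin', LinearMap.det_toLin', Matrix.det_transpose,
      ENNReal.toReal_mul, ENNReal.toReal_mul, ENNReal.toReal_ofReal (abs_nonneg _)]
    ring
  rw [hprod] at h
  set R := gm p ^ (1 / p) * gm (p / (p - 1)) ^ (1 / (p / (p - 1))) with hRdef
  have hR0 : 0 < R := mul_pos (Real.rpow_pos_of_pos (gm_pos (by linarith)) _)
    (Real.rpow_pos_of_pos (gm_pos (div_nonneg (by linarith) (by linarith))) _)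
  have hq : 1.0375 * (4 * Real.exp 1 / n) ≤ 2 * Real.pi * Real.exp 1 / (R * n) := by
    rw [← div_div, ← mul_div_assoc]
    refine div_le_div_of_nonneg_right ?_ hn0.le
    rw [le_div_iff₀ hR0]
    calc 1.0375 * (4 * Real.exp 1) * R ≤ 1.0375 * (4 * Real.exp 1) * (1514 / 1000) :=
          mul_le_mul_of_nonneg_left hR' (by positivity)
      _ ≤ 2 * Real.pi * Real.exp 1 := by nlinarith [Real.pi_gt_d6, Real.exp_pos 1]
  have he2 : Real.exp 1 ^ 2 ≤ 7.39 := by nlinarith [Real.exp_one_lt_d9, Real.exp_pos 1]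
  set V := (volume (lpBody a p)).toReal * (volume (polarBody (lpBody a p))).toReal with hV
  have hV0 : 0 ≤ V := mul_nonneg ENNReal.toReal_nonneg ENNReal.toReal_nonneg
  have h5 : (1.0375 : ℝ) ^ n * (4 * Real.exp 1 / n) ^ n ≤ (1.0375 : ℝ) ^ n * V := by
    calc (1.0375 : ℝ) ^ n * (4 * Real.exp 1 / n) ^ n = (1.0375 * (4 * Real.exp 1 / n)) ^ n :=
          (mul_pow _ _ _).symm
      _ ≤ (2 * Real.pi * Real.exp 1 / (R * n)) ^ n := pow_le_pow_left₀ (by positivity) hq n
      _ ≤ (Real.exp 1 * ((n : ℝ) + 1)) ^ 2 * V := h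
      _ ≤ 7.39 * ((n : ℝ) + 1) ^ 2 * V := by rw [mul_pow]; gcongr
      _ ≤ _ := mul_le_mul_of_nonneg_right (growth n hn) hV0
  exact le_of_mul_le_mul_left h5 (by positivity)

/-- A polar of a symmetric body with the origin inside is bounded. -/
lemma polar_isBounded {K : Set (Fin n → ℝ)} {r : ℝ} (hr : 0 < r) (hK : ∀ x, ‖x‖ ≤ r → x ∈ K) :
    Bornology.IsBounded (polarBody K) := by
  refine Metric.isBounded_closedBall.subset (s := polarBody K) (t := Metric.closedBall 0 r⁻¹) fun y hy => ?_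
  rw [mem_closedBall_zero_iff, pi_norm_le_iff_of_nonneg (by positivity)]
  intro j
  have hin : ∀ c : ℝ, |c| ≤ r → y j * c ≤ 1 := fun c hc => by
    have h := hy (Pi.single j c) (hK _ (by
      rw [pi_norm_le_iff_of_nonneg hr.le]
      intro k
      rcases eq_or_ne k j with rfl | hk
      · simpa using hc
      · simp [hk, hr.le]))
    simpa [Pi.single_apply] using h
  have h1 := hin r (abs_of_pos hr).le
  have h2 := hin (-r) (by rw [abs_neg, abs_of_pos hr])
  rw [Real.norm_eq_abs, abs_le]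
  constructor
  · rw [neg_le, ← one_div, le_div_iff₀ hr]; linarith
  · rw [← one_div, le_div_iff₀ hr]; linarith

open Vale.Agent.P254.LpSub.GeneralAux in
/-- The theorem for all subspaces of `L_p`. -/
theorem main_general (hL : Lewis) (hP : ProductLower) (hR : RatioNumeric) (hn : 400 ≤ n)
    {Ω : Type} [MeasurableSpace Ω] (μ : Measure Ω) (f : Fin n → Ω → ℝ) {p : ℝ}
    (hp : 8 / 7 ≤ p) (hp' : p ≤ 8) (hf : ∀ j, MemLp (f j) (ENNReal.ofReal p) μ)
    (hb : Bornology.IsBounded {x : Fin n → ℝ | ∫ ω, |∑ j, x j * f j ω| ^ p ∂μ ≤ 1}) :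
    (4 : ℝ) ^ n / (n ! : ℝ) < (volume {x : Fin n → ℝ | ∫ ω, |∑ j, x j * f j ω| ^ p ∂μ ≤ 1}).toReal *
      (volume (polarBody {x : Fin n → ℝ | ∫ ω, |∑ j, x j * f j ω| ^ p ∂μ ≤ 1})).toReal := by
  have hp0 : 0 < p := by linarith
  have hp1 : 1 ≤ p := by linarith
  have hn0 : (0 : ℝ) < n := by exact_mod_cast (show 0 < n by omega)
  set q := ENNReal.ofReal p with hq
  have hq1 : 1 ≤ q := by rw [hq]; exact ENNReal.one_le_ofReal.2 hp1
  set P := nrm μ f q with hPdef
  have hP0 : ∀ x, 0 ≤ P x := fun x => ENNReal.toReal_nonneg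
  set K := {x : Fin n → ℝ | ∫ ω, |∑ j, x j * f j ω| ^ p ∂μ ≤ 1} with hK
  have hKP : K = {x | P x ≤ 1} := by
    ext x
    show _ ≤ (1 : ℝ) ↔ _
    rw [← nrm_rpow hp1 hf x]
    exact ⟨fun h => by
      by_contra hc
      exact absurd h (not_le.2 (Real.one_lt_rpow (not_le.1 hc) hp0)),
      fun h => Real.rpow_le_one (hP0 x) h hp0.le⟩
  obtain ⟨R, hR'⟩ := hb.exists_norm_le
  set R' := |R| + 1
  have hlow : ∀ x, ‖x‖ ≤ R' * P x := fun x => by
    by_contra hc
    push Not at hc
    have hx : 0 < ‖x‖ := lt_of_le_of_lt (mul_nonneg (by positivity) (hP0 x)) hc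
    have hmem : (R' / ‖x‖) • x ∈ K := by
      rw [hKP]
      show P _ ≤ 1
      rw [hPdef, nrm_smul, abs_of_pos (div_pos (by positivity) hx), ← hPdef, div_mul_eq_mul_div,
        div_le_one hx]
      exact hc.le
    have := hR' _ hmem
    rw [norm_smul, Real.norm_of_nonneg (by positivity), div_mul_cancel₀ _ hx.ne'] at this
    linarith [le_abs_self R]
  set C := ∑ j, (eLpNorm (f j) q μ).toReal with hC
  have hC0 : 0 ≤ C := Finset.sum_nonneg fun j _ => ENNReal.toReal_nonneg
  have hup : ∀ y, P y ≤ C * ‖y‖ := fun y => by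
    have h1 : eLpNorm (fun ω => ∑ j, y j * f j ω) q μ ≤ ∑ j, eLpNorm (y j • f j) q μ := by
      rw [show (fun ω => ∑ j, y j * f j ω) = ∑ j, y j • f j by funext ω; simp [Finset.sum_apply]]
      exact eLpNorm_sum_le (fun j _ => (hf j).aestronglyMeasurable.const_smul _) hq1
    have h2 := ENNReal.toReal_mono (ENNReal.sum_ne_top.2 fun j _ =>
      ((hf j).const_smul (y j)).eLpNorm_ne_top) h1
    rw [ENNReal.toReal_sum fun j _ => ((hf j).const_smul (y j)).eLpNorm_ne_top] at h2
    refine h2.trans ?_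
    rw [hC, Finset.sum_mul]
    refine Finset.sum_le_sum fun j _ => ?_
    rw [eLpNorm_const_smul, ENNReal.toReal_mul, Real.enorm_eq_ofReal_abs,
      ENNReal.toReal_ofReal (abs_nonneg _), mul_comm]
    exact mul_le_mul_of_nonneg_left
      ((Real.norm_eq_abs (y j)).symm.le.trans (norm_le_pi_norm y j)) ENNReal.toReal_nonneg
  have hpolb : Bornology.IsBounded (polarBody K) :=
    polar_isBounded (r := 1 / (C + 1)) (by positivity) fun x hx => by
      rw [hKP]
      refine (hup x).trans ((mul_le_mul_of_nonneg_left hx hC0).trans ?_)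
      rw [mul_one_div, div_le_one (by positivity)]
      linarith
  -- approximation by finitely many functionals
  have hbound : ∀ d : ℝ, 0 < d → d ≤ 1 / 2 →
      (4 * Real.exp 1 / n) ^ n * (1 - d) ^ n ≤
        (1 + d) ^ n * ((volume K).toReal * (volume (polarBody K)).toReal) := by
    intro d hd0 hd
    set ε : ℝ := d / (n * R') with hε
    have hε0 : 0 < ε := by positivity
    choose g hg hgm using fun j => (hf j).exists_simpleFunc_eLpNorm_sub_lt ENNReal.ofReal_ne_top
      (ε := ENNReal.ofReal ε) (ENNReal.ofReal_pos.2 hε0).ne'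
    obtain ⟨N, a, ha⟩ := simple_body hp1 hgm
    set Q := nrm μ (fun j => ⇑(g j)) q with hQ
    have hs : ∀ x, (∑ j, |x j|) * ε ≤ d * P x := fun x => by
      have h1 : ∑ j, |x j| ≤ n * (R' * P x) := by
        refine (Finset.sum_le_sum (g := fun _ => R' * P x) fun j _ => ?_).trans (by simp)
        exact ((Real.norm_eq_abs (x j)).symm.le.trans (norm_le_pi_norm x j)).trans (hlow x)
      calc (∑ j, |x j|) * ε ≤ n * (R' * P x) * ε := mul_le_mul_of_nonneg_right h1 hε0.le
        _ = d * P x := by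
          rw [hε]
          have : R' ≠ 0 := by positivity
          field_simp
    have hQP : ∀ x, Q x ≤ (1 + d) * P x := fun x => by
      have := nrm_sub_le hq1 hgm hf hε0.le (fun j => by rw [eLpNorm_sub_comm]; exact (hg j).le) x
      rw [← hPdef, ← hQ] at this
      linarith [hs x]
    have hPQ : ∀ x, (1 - d) * P x ≤ Q x := fun x => by
      have := nrm_sub_le hq1 hf hgm hε0.le (fun j => (hg j).le) x
      rw [← hPdef, ← hQ] at this
      linarith [hs x]
    set Km := lpBody a p with hKm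
    have hsub1 : Km ⊆ (1 - d)⁻¹ • K := fun x hx => by
      rw [Set.mem_smul_set_iff_inv_smul_mem₀ (inv_ne_zero (by linarith)), inv_inv, hKP]
      show P _ ≤ 1
      rw [hPdef, nrm_smul, abs_of_pos (by linarith), ← hPdef]
      exact (hPQ x).trans (by rw [ha] at hx; exact hx)
    have hsub2 : ∀ x ∈ K, (1 + d)⁻¹ • x ∈ Km := fun x hx => by
      rw [ha]
      show Q _ ≤ 1
      refine (hQP _).trans ?_
      rw [hPdef, nrm_smul, abs_of_pos (by positivity), ← hPdef, ← mul_assoc,
        mul_inv_cancel₀ (by linarith), one_mul]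
      rw [hKP] at hx
      exact hx
    have hsub3 : polarBody Km ⊆ (1 + d) • polarBody K := fun y hy => by
      rw [Set.mem_smul_set_iff_inv_smul_mem₀ (by linarith)]
      intro x hx
      have h1 := hy _ (hsub2 x hx)
      refine le_of_eq_of_le (Finset.sum_congr rfl fun j _ => ?_) h1
      simp; ring
    have hbm : Bornology.IsBounded Km := (hb.smul₀ _).subset hsub1
    have hfin := finite_case hL hP hR hn a hp hp' hbm
    have hv1 : (volume Km).toReal ≤ (1 - d)⁻¹ ^ n * (volume K).toReal := by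
      have h1 := ENNReal.toReal_mono (hb.smul₀ _).measure_lt_top.ne (measure_mono (μ := volume) hsub1)
      rwa [Measure.addHaar_smul_of_nonneg _ (inv_nonneg.2 (by linarith)), Module.finrank_fin_fun,
        ENNReal.toReal_mul, ENNReal.toReal_ofReal (pow_nonneg (inv_nonneg.2 (by linarith)) n)] at h1
    have hv2 : (volume (polarBody Km)).toReal ≤ (1 + d) ^ n * (volume (polarBody K)).toReal := by
      have h1 := ENNReal.toReal_mono (hpolb.smul₀ _).measure_lt_top.ne
        (measure_mono (μ := volume) hsub3)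
      rwa [Measure.addHaar_smul_of_nonneg _ (by linarith), Module.finrank_fin_fun,
        ENNReal.toReal_mul, ENNReal.toReal_ofReal (by positivity)] at h1
    have h6 := hfin.trans (mul_le_mul hv1 hv2 ENNReal.toReal_nonneg
      (mul_nonneg (pow_nonneg (inv_nonneg.2 (by linarith)) n) ENNReal.toReal_nonneg))
    rw [inv_pow] at h6
    have hpow : (0 : ℝ) < (1 - d) ^ n := pow_pos (by linarith) n
    have h7 := mul_le_mul_of_nonneg_right h6 hpow.le
    refine h7.trans (le_of_eq ?_)
    field_simp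
  refine (hanner_lt (by omega)).trans_le ?_
  have hl : Tendsto (fun d : ℝ => (4 * Real.exp 1 / n) ^ n * (1 - d) ^ n) (𝓝[>] 0)
      (𝓝 ((4 * Real.exp 1 / n) ^ n)) := by
    have := ((continuous_const.mul ((continuous_const.sub continuous_id).pow n)).tendsto
      (0 : ℝ)).mono_left (nhdsWithin_le_nhds (s := Ioi (0 : ℝ))) (f := fun d : ℝ =>
        (4 * Real.exp 1 / n) ^ n * (1 - d) ^ n)
    simpa using this
  have hr : Tendsto (fun d : ℝ => (1 + d) ^ n * ((volume K).toReal * (volume (polarBody K)).toReal))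
      (𝓝[>] 0) (𝓝 ((volume K).toReal * (volume (polarBody K)).toReal)) := by
    have := ((((continuous_const (y := (1 : ℝ))).add continuous_id).pow n).mul continuous_const).tendsto
      (0 : ℝ) |>.mono_left (nhdsWithin_le_nhds (s := Ioi (0 : ℝ))) (f := fun d : ℝ =>
        (1 + d) ^ n * ((volume K).toReal * (volume (polarBody K)).toReal))
    simpa using this
  refine le_of_tendsto_of_tendsto hl hr ?_
  filter_upwards [Ioo_mem_nhdsGT (show (0 : ℝ) < 1 / 2 by norm_num)] with d hd
  exact hbound d hd.1 hd.2.le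

end Vale.Agent.P248.LpMahler
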