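import Vale.Agent.P254.LpSub.Pins

/-!
P248, subspaces of `L_p`: the statements exchanged between the blocks of the proof that unit balls
of finite dimensional subspaces of `L_p`, `8/7 ≤ p ≤ 8`, satisfy the symmetric Mahler inequality in
high dimension.
-/

noncomputable section

open MeasureTheory Set

namespace Vale.Agent.P248

/-- The polar `{y | ⟨y, x⟩ ≤ 1 for all x ∈ K}`. -/
def polarBody {n : ℕ} (K : Set (Fin n → ℝ)) : Set (Fin n → ℝ) :=
  {y | ∀ x ∈ K, ∑ j, y j * x j ≤ 1}

namespace LpMahler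

open Vale.Agent.P254.LpSub

/-- Lewis position: after a linear change of variables the vectors decompose the identity with the
weights `‖b_i‖ ^ (p - 2)`. -/
def Lewis : Prop := ∀ (n N : ℕ) (a : Fin N → Fin n → ℝ) (p : ℝ), 0 < n → 1 < p →
  Bornology.IsBounded (lpBody a p) →
  ∃ T : Matrix (Fin n) (Fin n) ℝ, IsUnit T.det ∧ ∀ j k,
    ∑ i, √(∑ l, Matrix.vecMul (a i) T l ^ 2) ^ (p - 2) *
      (Matrix.vecMul (a i) T j * Matrix.vecMul (a i) T k) = if j = k then 1 else 0

/-- In Lewis position both volumes have Gaussian lower bounds. -/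
def ProductLower : Prop := ∀ (n N : ℕ) (b : Fin N → Fin n → ℝ) (p q : ℝ), 0 < n →
  p.HolderConjugate q → Bornology.IsBounded (lpBody b p) →
  (∀ j k, ∑ i, √(∑ l, b i l ^ 2) ^ (p - 2) * (b i j * b i k) = if j = k then 1 else 0) →
  (2 * Real.pi * Real.exp 1 / (gm p ^ (1 / p) * gm q ^ (1 / q) * n)) ^ n ≤
    (Real.exp 1 * ((n : ℝ) + 1)) ^ 2 *
      ((volume (lpBody b p)).toReal * (volume (polarBody (lpBody b p))).toReal)

/-- The product of the two normalised Gaussian moments stays below `π / 2` with margin. -/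
def RatioNumeric : Prop := ∀ p q : ℝ, p.HolderConjugate q → 8 / 7 ≤ p → p ≤ 8 →
  gm p ^ (1 / p) * gm q ^ (1 / q) ≤ 1514 / 1000

end LpMahler

end Vale.Agent.P248
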