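import Mathlib
import Vale.Agent.P248.LpMahler.Pins
import Vale.Agent.P254.LpSub.Numeric

/-!
P248, subspaces of `L_p`: the product of the two normalised Gaussian moments, by log-convexity of
the moments between the orders `1`, `2` and `8`.
-/

noncomputable section

namespace Vale.Agent.P248.LpMahler

open Vale.Agent.P254.LpSub

theorem gm_two : gm 2 = 1 := by simpa [gm_zero] using gm_even 0

theorem gm_eight : gm 8 = 105 := by
  have g4 := gm_even 1
  have g6 := gm_even 2
  have g8 := gm_even 3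
  norm_num [gm_two] at g4 g6 g8 ⊢
  linarith

/-- The bound for `2 ≤ p ≤ 8`, where the conjugate order lies between `1` and `2`. -/
theorem ratio_two_le {p q : ℝ} (h : p.HolderConjugate q) (hp : 2 ≤ p) (hp8 : p ≤ 8) :
    gm p ^ (1 / p) * gm q ^ (1 / q) ≤ 1514 / 1000 := by
  have hp0 : 0 < p := by linarith
  have hq1 : 1 ≤ q := h.symm.lt.le
  have hsum : 1 / p + 1 / q = 1 := by simpa [one_div] using h.inv_add_inv_eq_one
  have hq2 : q ≤ 2 := by
    have hp2 : 1 / p ≤ 1 / 2 := one_div_le_one_div_of_le two_pos hp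
    exact (one_div_le_one_div two_pos (by linarith)).1 (by linarith)
  have hK1 : 157 / 100 * gm 1 ≤ (157 / 100 : ℝ) ^ ((1 : ℝ) / 2) := by
    have hG : gm 1 = √(2 / Real.pi) := by
      rw [Real.sqrt_div two_pos.le]
      unfold gm
      norm_num [Real.sqrt_eq_rpow]
    rw [hG, ← Real.sqrt_eq_rpow]
    calc 157 / 100 * √(2 / Real.pi) = √((157 / 100) ^ 2 * (2 / Real.pi)) := by
          rw [Real.sqrt_mul (sq_nonneg _), Real.sqrt_sq (by norm_num)]
      _ ≤ √(157 / 100) := by
          refine Real.sqrt_le_sqrt ?_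
          rw [mul_div_assoc', div_le_iff₀ Real.pi_pos]
          nlinarith [Real.pi_gt_d2]
  have hP : gm p ≤ (472 / 100 : ℝ) ^ (p / 2 - 1) := by
    have hi := gm_interp (K := 472 / 100) (c := 472 / 100) two_pos.le hp hp8 (by norm_num)
      (by norm_num) (by norm_num) (by norm_num [gm_two]) (by rw [gm_eight]; norm_num)
    rw [Real.rpow_sub_one (by norm_num), le_div_iff₀ (by norm_num)]
    linarith
  have hQ : gm q ≤ (157 / 100 : ℝ) ^ (q / 2 - 1) := by
    have hi := gm_interp (K := 157 / 100) (c := 157 / 100) zero_le_one hq1 hq2 one_lt_two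
      (by norm_num) (by norm_num) hK1 (by norm_num [gm_two])
    rw [Real.rpow_sub_one (by norm_num), le_div_iff₀ (by norm_num)]
    linarith
  have hq0 : 0 < q := by linarith
  have hP' : gm p ^ (1 / p) ≤ (472 / 100 : ℝ) ^ (1 / 2 - 1 / p) := by
    refine (Real.rpow_le_rpow (gm_pos hp0.le).le hP (by positivity)).trans (le_of_eq ?_)
    rw [← Real.rpow_mul (by norm_num)]
    congr 1
    field_simp
  have hQ' : gm q ^ (1 / q) ≤ (157 / 100 : ℝ) ^ (-(1 / 2 - 1 / p)) := by
    refine (Real.rpow_le_rpow (gm_pos hq0.le).le hQ (by positivity)).trans (le_of_eq ?_)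
    rw [← Real.rpow_mul (by norm_num), show 1 / p = 1 - 1 / q by linarith]
    congr 1
    field_simp
    ring
  refine (mul_le_mul hP' hQ' (Real.rpow_nonneg (gm_pos hq0.le).le _) (by positivity)).trans ?_
  rw [Real.rpow_neg (by norm_num), ← div_eq_mul_inv, ← Real.div_rpow (by norm_num) (by norm_num)]
  have he : 1 / 2 - 1 / p ≤ 3 / 8 := by
    have := one_div_le_one_div_of_le hp0 hp8
    linarith
  refine (Real.rpow_le_rpow_of_exponent_le (by norm_num) he).trans ?_
  rw [← pow_le_pow_iff_left₀ (by positivity) (by norm_num) (show (8 : ℕ) ≠ 0 by norm_num),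
    ← Real.rpow_natCast ((472 / 100 / (157 / 100) : ℝ) ^ ((3 : ℝ) / 8)) 8,
    ← Real.rpow_mul (by norm_num), show (3 : ℝ) / 8 * ((8 : ℕ) : ℝ) = ((3 : ℕ) : ℝ) by norm_num,
    Real.rpow_natCast]
  norm_num

/-- The numerical bound of the pins. -/
theorem ratioNumeric : RatioNumeric := by
  intro p q h h87 h8
  rcases le_total 2 p with hp | hp
  · exact ratio_two_le h hp h8
  have hsum : 1 / p + 1 / q = 1 := by simpa [one_div] using h.inv_add_inv_eq_one
  have hp0 : 0 < p := by linarith
  have hq0 : 0 < q := h.symm.pos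
  have h1 : 1 / q ≤ 1 / 2 := by
    have := one_div_le_one_div_of_le hp0 hp
    linarith
  have h2 : 1 / 8 ≤ 1 / q := by
    have := one_div_le_one_div_of_le (show (0 : ℝ) < 8 / 7 by norm_num) h87
    rw [one_div_div] at this
    linarith
  rw [mul_comm]
  exact ratio_two_le h.symm ((one_div_le_one_div hq0 two_pos).1 h1)
    ((one_div_le_one_div (by norm_num) hq0).1 h2)

end Vale.Agent.P248.LpMahler
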